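import Vale.Agent.P354.R3.H713.Lin

/-!
The functions Q(-log w) / √w for w = -v (1 + v) and polynomials Q.
-/

open MeasureTheory Set Filter Topology

namespace Vale.Agent.P354.R3.H713

theorem f0_not' {p : ENNReal} (hp : 2 ≤ p) {b : ℝ} (hb : -(1 / 2) ≤ b) (hb0 : b < 0) :
    ¬ eLpNorm f0 p (volume.restrict (Ioo b 0)) < ⊤ := by
  intro h
  have h1 : MemLp f0 p (volume.restrict (Ioo b 0)) := ⟨f0_meas.aestronglyMeasurable, h⟩
  have h2 : MemLp f0 2 (volume.restrict (Ioo b 0)) := h1.mono_exponent hp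
  have h3 : IntegrableOn (fun v => f0 v ^ 2) (Ioo b 0) :=
    (memLp_two_iff_integrable_sq f0_meas.aestronglyMeasurable).1 h2
  have h4 : IntegrableOn (fun v : ℝ => (v - 0)⁻¹) (Ioo b 0) := by
    refine Integrable.mono' h3 (by fun_prop) ?_
    rw [ae_restrict_iff' measurableSet_Ioo]
    refine Filter.Eventually.of_forall fun v hv => ?_
    have hv' : v ∈ Ioo (-1 : ℝ) 0 := ⟨by linarith [hv.1], hv.2⟩
    rw [f0_sq hv', sub_zero, Real.norm_eq_abs, abs_inv, abs_of_neg hv.2]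
    refine inv_anti₀ (pos_aux hv') ?_
    have := hv.1
    have := hv.2
    nlinarith
  have h5 : IntervalIntegrable (fun v : ℝ => (v - 0)⁻¹) volume b 0 := by
    rw [intervalIntegrable_iff_integrableOn_Ioo_of_le hb0.le]
    exact h4
  rw [intervalIntegrable_sub_inv_iff] at h5
  rcases h5 with h5 | h5
  · linarith
  · exact h5 right_mem_uIcc

/-- The function w = -v (1 + v). -/
def ww (v : ℝ) : ℝ := -(v * (1 + v))

theorem ww_le (v : ℝ) : ww v ≤ 1 / 4 := by
  unfold ww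
  nlinarith [sq_nonneg (v + 1 / 2)]

/-- The functions Q(-log w) / √w. -/
noncomputable def LQ : Polynomial ℝ →ₗ[ℝ] ℝ → ℝ where
  toFun Q v := f0 v * Q.eval (-Real.log (ww v))
  map_add' Q R := by
    funext v
    simp only [Polynomial.eval_add, Pi.add_apply]
    ring
  map_smul' c Q := by
    funext v
    simp only [Polynomial.eval_smul, Pi.smul_apply, smul_eq_mul, RingHom.id_apply]
    ring

theorem LQ_apply (Q : Polynomial ℝ) (v : ℝ) : LQ Q v = f0 v * Q.eval (-Real.log (ww v)) := rfl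

theorem poly_le (Q : Polynomial ℝ) :
    ∃ C : ℝ, 0 ≤ C ∧ ∀ x : ℝ, 0 ≤ x → |Q.eval x| ≤ C * Real.exp (x / 4) := by
  induction Q using Polynomial.induction_on' with
  | add P R hP hR =>
    obtain ⟨C, hC, h1⟩ := hP
    obtain ⟨C', hC', h2⟩ := hR
    refine ⟨C + C', by positivity, fun x hx => ?_⟩
    rw [Polynomial.eval_add, add_mul]
    exact (abs_add_le _ _).trans (add_le_add (h1 x hx) (h2 x hx))
  | monomial n a =>
    refine ⟨|a| * (4 ^ n * n.factorial), by positivity, fun x hx => ?_⟩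
    rw [Polynomial.eval_monomial, abs_mul, abs_of_nonneg (pow_nonneg hx n), mul_assoc]
    refine mul_le_mul_of_nonneg_left ?_ (abs_nonneg a)
    have h := Real.pow_div_factorial_le_exp (x / 4) (by positivity) n
    rw [div_le_iff₀ (by positivity), div_pow, div_le_iff₀ (by positivity)] at h
    linarith

theorem poly_ge {Q : Polynomial ℝ} (hQ : Q ≠ 0) :
    ∃ c : ℝ, 0 < c ∧ ∃ X : ℝ, ∀ x, X ≤ x → c ≤ |Q.eval x| := by
  by_cases h : 0 < Q.degree
  · have h1 := Polynomial.abs_tendsto_atTop Q h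
    obtain ⟨X, hX⟩ := (h1.eventually_ge_atTop 1).exists_forall_of_atTop
    exact ⟨1, one_pos, X, hX⟩
  · have h1 := Polynomial.eq_C_of_degree_le_zero (not_lt.1 h)
    have h2 : Q.coeff 0 ≠ 0 := by
      intro h3
      rw [h3, map_zero] at h1
      exact hQ h1
    refine ⟨|Q.coeff 0|, abs_pos.2 h2, 0, fun x _ => ?_⟩
    conv_rhs => rw [h1]
    rw [Polynomial.eval_C]

theorem rp_int : IntegrableOn (fun v => ww v ^ (-(3 / 4) : ℝ)) (Ioo (-1) 0) := by
  have h := intervalIntegral.intervalIntegrable_rpow' (a := 0) (b := 1) (r := -(3 / 4)) (by norm_num)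
  have h1 := (h.comp_sub_left 0).symm
  have h2 := h.comp_add_right 1
  norm_num at h1 h2
  rw [intervalIntegrable_iff_integrableOn_Ioo_of_le (by norm_num)] at h1 h2
  refine Integrable.mono' (h1.add h2) ?_ ?_
  · have : Measurable fun v => ww v ^ (-(3 / 4) : ℝ) := by
      unfold ww
      fun_prop
    exact this.aestronglyMeasurable
  · rw [ae_restrict_iff' measurableSet_Ioo]
    refine Eventually.of_forall fun v hv => ?_
    have ha : 0 < -v := by linarith [hv.2]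
    have hb : 0 < 1 + v := by linarith [hv.1]
    have e : ww v = -v * (1 + v) := by unfold ww; ring
    have e1 : ∀ a : ℝ, 0 < a → a ≤ 1 → a ≤ a ^ ((3 / 4 : ℝ)) := by
      intro a h0 h1
      have := Real.rpow_le_rpow_of_exponent_ge h0 h1 (by norm_num : (3 / 4 : ℝ) ≤ 1)
      rwa [Real.rpow_one] at this
    have k1 := e1 _ ha (by linarith [hv.1])
    have k2 := e1 _ hb (by linarith [hv.2])
    rw [Real.norm_eq_abs, abs_of_nonneg (Real.rpow_nonneg (by rw [e]; positivity) _), e,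
      Real.mul_rpow ha.le hb.le, Real.rpow_neg ha.le, Real.rpow_neg hb.le]
    simp only [Pi.add_apply]
    rw [add_comm v 1]
    have p1 : 0 < (-v) ^ (3 / 4 : ℝ) := Real.rpow_pos_of_pos ha _
    have p2 : 0 < (1 + v) ^ (3 / 4 : ℝ) := Real.rpow_pos_of_pos hb _
    rw [Real.rpow_neg ha.le, Real.rpow_neg hb.le]
    rw [← mul_inv, inv_add_inv p1.ne' p2.ne', ← one_div]
    exact div_le_div_of_nonneg_right (by linarith) (by positivity)

theorem LQ_bd (Q : Polynomial ℝ) : ∃ C : ℝ, 0 ≤ C ∧ ∀ v ∈ Ioo (-1 : ℝ) 0,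
    |Q.eval (-Real.log (ww v))| ≤ C * ww v ^ (-(1 / 4) : ℝ) := by
  obtain ⟨C, hC, h⟩ := poly_le Q
  refine ⟨C, hC, fun v hv => ?_⟩
  have h0 : 0 < ww v := pos_aux hv
  have h1 : 0 ≤ -Real.log (ww v) := by
    have := Real.log_nonpos h0.le ((ww_le v).trans (by norm_num))
    linarith
  refine (h _ h1).trans_eq ?_
  rw [Real.rpow_def_of_pos h0]
  congr 2
  ring

theorem LQ_smooth (Q : Polynomial ℝ) : ContDiffOn ℝ (⊤ : ℕ∞) (LQ Q) (Ioo (-1) 0) := by
  have h1 : ContDiffOn ℝ (⊤ : ℕ∞) (fun v => -Real.log (ww v)) (Ioo (-1) 0) := by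
    intro v hv
    have h : 0 < ww v := pos_aux hv
    refine ContDiffAt.contDiffWithinAt ?_
    refine (ContDiffAt.log ?_ h.ne').neg
    unfold ww
    fun_prop
  have h2 : ContDiff ℝ (⊤ : ℕ∞) fun x => Q.eval x := by
    have := Q.contDiff_aeval (𝕜 := ℝ) (n := (⊤ : ℕ∞))
    simpa using this
  exact f0_smooth.mul (h2.comp_contDiffOn h1)

theorem LQ_int (Q : Polynomial ℝ) : IntegrableOn (LQ Q) (Ioo (-1) 0) := by
  obtain ⟨C, hC, h⟩ := LQ_bd Q
  refine Integrable.mono' (rp_int.const_mul C)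
    ((LQ_smooth Q).continuousOn.aestronglyMeasurable measurableSet_Ioo) ?_
  rw [ae_restrict_iff' measurableSet_Ioo]
  refine Eventually.of_forall fun v hv => ?_
  have h0 : 0 < ww v := pos_aux hv
  have h1 : f0 v = ww v ^ (-(1 / 2) : ℝ) := by
    rw [f0, Real.rpow_neg h0.le, ← Real.sqrt_eq_rpow]
    rfl
  rw [LQ_apply, Real.norm_eq_abs, abs_mul, h1, abs_of_pos (Real.rpow_pos_of_pos h0 _)]
  have h2 := mul_le_mul_of_nonneg_left (h v hv) (Real.rpow_pos_of_pos h0 (-(1 / 2))).le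
  refine h2.trans_eq ?_
  rw [mul_left_comm, ← Real.rpow_add h0]
  norm_num

theorem LQ_int2 (Q : Polynomial ℝ) :
    IntegrableOn (fun v => v * (1 + v) * LQ Q v ^ 2) (Ioo (-1) 0) := by
  obtain ⟨C, hC, h⟩ := LQ_bd Q
  refine Integrable.mono' (f0_int.const_mul (C ^ 2)) ?_ ?_
  · have hc : ContinuousOn (fun v => v * (1 + v) * LQ Q v ^ 2) (Ioo (-1) 0) :=
      (Continuous.continuousOn (by fun_prop)).mul ((LQ_smooth Q).continuousOn.pow 2)
    exact hc.aestronglyMeasurable measurableSet_Ioo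
  · rw [ae_restrict_iff' measurableSet_Ioo]
    refine Eventually.of_forall fun v hv => ?_
    have h0 : 0 < ww v := pos_aux hv
    have h1 : f0 v = ww v ^ (-(1 / 2) : ℝ) := by
      rw [f0, Real.rpow_neg h0.le, ← Real.sqrt_eq_rpow]
      rfl
    have h2 : v * (1 + v) * LQ Q v ^ 2 = -(Q.eval (-Real.log (ww v)) ^ 2) := by
      rw [LQ_apply, mul_pow, f0_sq hv]
      have h3 : -(v * (1 + v)) ≠ 0 := h0.ne'
      have h4 : v * (1 + v) ≠ 0 := fun h5 => h3 (by rw [h5, neg_zero])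
      have h5 : v * (1 + v) * ((-(v * (1 + v)))⁻¹ * Q.eval (-Real.log (ww v)) ^ 2) =
          -(v * (1 + v) * (v * (1 + v))⁻¹ * Q.eval (-Real.log (ww v)) ^ 2) := by
        rw [inv_neg]
        ring
      rw [h5, mul_inv_cancel₀ h4, one_mul]
    rw [h2, norm_neg, Real.norm_eq_abs, abs_pow]
    have h3 := pow_le_pow_left₀ (abs_nonneg _) (h v hv) 2
    refine h3.trans_eq ?_
    rw [mul_pow, h1, ← Real.rpow_natCast (ww v ^ (-(1 / 4) : ℝ)) 2, ← Real.rpow_mul h0.le]
    norm_num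

theorem ww_tendsto : Tendsto (fun v => -Real.log (ww v)) (𝓝[<] 0) atTop := by
  refine tendsto_neg_atBot_atTop.comp (Real.tendsto_log_nhdsGT_zero.comp ?_)
  rw [tendsto_nhdsWithin_iff]
  constructor
  · have h : Continuous ww := by
      unfold ww
      fun_prop
    have h1 := h.tendsto 0
    have h2 : ww 0 = 0 := by
      unfold ww
      ring
    rw [h2] at h1
    exact h1.mono_left nhdsWithin_le_nhds
  · filter_upwards [Ioo_mem_nhdsLT (by norm_num : (-1 : ℝ) < 0)] with v hv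
    exact pos_aux hv

theorem LQ_not {p : ENNReal} (hp : 2 ≤ p) {Q : Polynomial ℝ} (hQ : Q ≠ 0) :
    ¬ eLpNorm (LQ Q) p (volume.restrict (Ioo (-(1 / 2) : ℝ) 0)) < ⊤ := by
  intro h
  obtain ⟨c, hc, X, hX⟩ := poly_ge hQ
  have h1 : ∀ᶠ v in 𝓝[<] (0 : ℝ), c ≤ |Q.eval (-Real.log (ww v))| := by
    filter_upwards [ww_tendsto.eventually_ge_atTop X] with v hv
    exact hX _ hv
  obtain ⟨b, hb, h2⟩ := (mem_nhdsLT_iff_exists_Ioo_subset' (by norm_num : (-(1 / 2) : ℝ) < 0)).1 h1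
  set b' := max b (-(1 / 2)) with hb'
  have hb0 : b' < 0 := max_lt hb (by norm_num)
  have hb1 : -(1 / 2) ≤ b' := le_max_right _ _
  apply f0_not' hp hb1 hb0
  have hm : AEStronglyMeasurable (LQ Q) (volume.restrict (Ioo (-(1 / 2) : ℝ) 0)) :=
    ((LQ_smooth Q).continuousOn.mono (Ioo_subset_Ioo_left (by norm_num))).aestronglyMeasurable
      measurableSet_Ioo
  have h3 : MemLp (LQ Q) p (volume.restrict (Ioo b' 0)) :=
    MemLp.mono_measure (Measure.restrict_mono (Ioo_subset_Ioo_left hb1) le_rfl) ⟨hm, h⟩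
  refine (MemLp.mono (h3.const_mul c⁻¹) f0_meas.aestronglyMeasurable ?_).2
  rw [ae_restrict_iff' measurableSet_Ioo]
  refine Eventually.of_forall fun v hv => ?_
  have h4 : c ≤ |Q.eval (-Real.log (ww v))| := h2 ⟨(le_max_left _ _).trans_lt hv.1, hv.2⟩
  rw [LQ_apply, Real.norm_eq_abs, Real.norm_eq_abs, abs_mul, abs_mul, abs_of_pos (inv_pos.2 hc)]
  have h5 : 0 ≤ |f0 v| := abs_nonneg _
  have h6 : 1 ≤ c⁻¹ * |Q.eval (-Real.log (ww v))| := by
    rw [inv_mul_eq_div, one_le_div hc]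
    exact h4
  nlinarith

theorem LQ_symm (Q : Polynomial ℝ) (v : ℝ) : LQ Q (-1 - v) = LQ Q v := by
  rw [LQ_apply, LQ_apply, f0_symm]
  have : ww (-1 - v) = ww v := by
    unfold ww
    ring
  rw [this]

end Vale.Agent.P354.R3.H713
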