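import Mathlib

/-!
Linear algebra: subspaces and null sets; the space of the functions in L^p.
-/

open MeasureTheory Set

namespace Vale.Agent.P354.R3.H713

variable {E : Type*} [AddCommGroup E] [Module ℝ E]

/-- The elements x such that T x is in L^p on (-1/2, 0) form a linear subspace. -/
def subLp (p : ENNReal) (T : E →ₗ[ℝ] ℝ → ℝ)
    (hm : ∀ x, AEStronglyMeasurable (T x) (volume.restrict (Ioo (-(1 / 2) : ℝ) 0))) :
    Submodule ℝ E where
  carrier := {x | eLpNorm (T x) p (volume.restrict (Ioo (-(1 / 2) : ℝ) 0)) < ⊤}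
  add_mem' := by
    intro x y hx hy
    have h := (MemLp.add (⟨hm x, hx⟩ : MemLp (T x) p _) ⟨hm y, hy⟩).2
    rw [mem_setOf_eq, map_add]
    exact h
  zero_mem' := by
    rw [mem_setOf_eq, map_zero, eLpNorm_zero]
    exact ENNReal.zero_lt_top
  smul_mem' := by
    intro c x hx
    have h := (MemLp.const_smul (⟨hm x, hx⟩ : MemLp (T x) p _) c).2
    rw [mem_setOf_eq, map_smul]
    exact h

theorem exists_notMem {V0 V1 : Submodule ℝ E} (h0 : V0 ≠ ⊤) (h1 : V1 ≠ ⊤) :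
    ∃ y, y ∉ V0 ∧ y ∉ V1 := by
  obtain ⟨x0, hx0⟩ : ∃ x, x ∉ V0 := by
    by_contra h
    exact h0 (eq_top_iff.2 fun x _ => by_contra fun hx => h ⟨x, hx⟩)
  obtain ⟨x1, hx1⟩ : ∃ x, x ∉ V1 := by
    by_contra h
    exact h1 (eq_top_iff.2 fun x _ => by_contra fun hx => h ⟨x, hx⟩)
  by_cases ha : x0 ∈ V1
  · by_cases hb : x1 ∈ V0
    · refine ⟨x0 + x1, fun h => hx0 ?_, fun h => hx1 ?_⟩
      · have := V0.sub_mem h hb
        rwa [add_sub_cancel_right] at this
      · have := V1.sub_mem h ha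
        rwa [add_sub_cancel_left] at this
    · exact ⟨x1, hb, hx1⟩
  · exact ⟨x0, hx0, ha⟩

theorem one_point (V : Submodule ℝ E) {y : E} (hy : y ∉ V) (x : E) :
    ∃ a : ℝ, ∀ t, t ≠ a → x + t • y ∉ V := by
  by_cases h : ∃ a : ℝ, x + a • y ∈ V
  · obtain ⟨a, ha⟩ := h
    refine ⟨a, fun t ht hmem => hy ?_⟩
    have h1 := V.sub_mem hmem ha
    have h2 : x + t • y - (x + a • y) = (t - a) • y := by
      rw [sub_smul]
      abel
    rw [h2] at h1
    have h3 := V.smul_mem (t - a)⁻¹ h1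
    rwa [smul_smul, inv_mul_cancel₀ (sub_ne_zero.2 ht), one_smul] at h3
  · exact ⟨0, fun t _ hmem => h ⟨t, hmem⟩⟩

theorem null_of {m : ℕ} (x : E) (y : Fin m → E) (V : Submodule ℝ E) (h : ∃ i, y i ∉ V) :
    volume {a : Fin m → ℝ | x + ∑ i, a i • y i ∈ V} = 0 := by
  classical
  set L : (Fin m → ℝ) →ₗ[ℝ] E := Fintype.linearCombination ℝ y with hLdef
  have hL : ∀ a, L a = ∑ i, a i • y i := fun a => rfl
  rcases Set.eq_empty_or_nonempty {a : Fin m → ℝ | x + ∑ i, a i • y i ∈ V} with he | ⟨a0, ha0⟩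
  · rw [he, measure_empty]
  · have hW : V.comap L ≠ ⊤ := by
      obtain ⟨i, hi⟩ := h
      intro ht
      apply hi
      have h1 : (Pi.single i (1 : ℝ) : Fin m → ℝ) ∈ V.comap L := by
        rw [ht]
        trivial
      rw [Submodule.mem_comap, hL] at h1
      simpa [Pi.single_apply] using h1
    have hsub : {a : Fin m → ℝ | x + ∑ i, a i • y i ∈ V} ⊆
        (fun a => a + (-a0)) ⁻¹' (V.comap L : Set (Fin m → ℝ)) := by
      intro a ha
      have h1 := V.sub_mem ha ha0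
      rw [← hL, ← hL, add_sub_add_left_eq_sub, ← map_sub] at h1
      change L (a + -a0) ∈ V
      rwa [← sub_eq_add_neg]
    refine measure_mono_null hsub ?_
    rw [measure_preimage_add_right]
    exact Measure.addHaar_submodule volume _ hW

/-! ### An explicit function -/

/-- The function 1 / √(-v (1 + v)). -/
noncomputable def f0 (v : ℝ) : ℝ := (√(-(v * (1 + v))))⁻¹

theorem pos_aux {v : ℝ} (hv : v ∈ Ioo (-1 : ℝ) 0) : 0 < -(v * (1 + v)) := by
  have h1 := hv.1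
  have h2 := hv.2
  nlinarith

theorem f0_deriv {v : ℝ} (hv : v ∈ Ioo (-1 : ℝ) 0) :
    HasDerivAt (fun v => Real.arcsin (2 * v + 1)) (f0 v) v := by
  have h1 := hv.1
  have h2 := hv.2
  have h3 := (Real.hasDerivAt_arcsin (x := 2 * v + 1) (by linarith) (by linarith)).comp v
    (((hasDerivAt_id v).const_mul 2).add_const 1)
  have h4 : 1 / √(1 - (2 * v + 1) ^ 2) * (2 * 1) = f0 v := by
    have h5 : 1 - (2 * v + 1) ^ 2 = 2 ^ 2 * (-(v * (1 + v))) := by ring
    rw [h5, Real.sqrt_mul (by norm_num), Real.sqrt_sq (by norm_num), f0]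
    have := (Real.sqrt_pos.2 (pos_aux hv)).ne'
    field_simp
  rw [← h4]
  exact h3

theorem f0_int : IntegrableOn f0 (Ioo (-1) 0) := by
  refine (intervalIntegral.integrableOn_deriv_of_nonneg (a := -1) (b := 0)
    (g := fun v => Real.arcsin (2 * v + 1)) ?_ (fun v hv => f0_deriv hv) fun v _ => ?_).mono_set
    Ioo_subset_Ioc_self
  · exact (Real.continuous_arcsin.comp (by fun_prop)).continuousOn
  · exact inv_nonneg.2 (Real.sqrt_nonneg _)

theorem f0_sq {v : ℝ} (hv : v ∈ Ioo (-1 : ℝ) 0) : f0 v ^ 2 = (-(v * (1 + v)))⁻¹ := by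
  rw [f0, inv_pow, Real.sq_sqrt (pos_aux hv).le]

theorem f0_smooth : ContDiffOn ℝ (⊤ : ℕ∞) f0 (Ioo (-1) 0) := by
  intro v hv
  have h := pos_aux hv
  refine ContDiffAt.contDiffWithinAt ?_
  refine ContDiffAt.inv ?_ (Real.sqrt_pos.2 h).ne'
  refine ContDiffAt.sqrt ?_ h.ne'
  fun_prop

theorem f0_int2 : IntegrableOn (fun v => v * (1 + v) * f0 v ^ 2) (Ioo (-1) 0) := by
  have h : IntegrableOn (fun _ : ℝ => (-1 : ℝ)) (Ioo (-1) 0) := integrableOn_const (by simp)
  refine h.congr_fun (fun v hv => ?_) measurableSet_Ioo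
  have h1 := (pos_aux hv).ne'
  simp only
  rw [f0_sq hv]
  have h2 : v * (1 + v) ≠ 0 := fun h3 => h1 (by rw [h3, neg_zero])
  rw [inv_neg, mul_neg, mul_inv_cancel₀ h2]

theorem f0_symm (v : ℝ) : f0 (-1 - v) = f0 v := by
  rw [f0, f0]
  congr 3
  ring

theorem f0_meas : Measurable f0 := by
  unfold f0
  fun_prop

theorem f0_not {p : ENNReal} (hp : 2 ≤ p) :
    ¬ eLpNorm f0 p (volume.restrict (Ioo (-(1 / 2) : ℝ) 0)) < ⊤ := by
  intro h
  have h1 : MemLp f0 p (volume.restrict (Ioo (-(1 / 2) : ℝ) 0)) := ⟨f0_meas.aestronglyMeasurable, h⟩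
  have h2 : MemLp f0 2 (volume.restrict (Ioo (-(1 / 2) : ℝ) 0)) := h1.mono_exponent hp
  have h3 : IntegrableOn (fun v => f0 v ^ 2) (Ioo (-(1 / 2) : ℝ) 0) :=
    (memLp_two_iff_integrable_sq f0_meas.aestronglyMeasurable).1 h2
  have h4 : IntegrableOn (fun v : ℝ => (v - 0)⁻¹) (Ioo (-(1 / 2) : ℝ) 0) := by
    refine Integrable.mono' h3 (by fun_prop) ?_
    rw [ae_restrict_iff' measurableSet_Ioo]
    refine Filter.Eventually.of_forall fun v hv => ?_
    have hv' : v ∈ Ioo (-1 : ℝ) 0 := ⟨by linarith [hv.1], hv.2⟩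
    rw [f0_sq hv', sub_zero, Real.norm_eq_abs, abs_inv, abs_of_neg hv.2]
    refine inv_anti₀ (pos_aux hv') ?_
    have := hv.1
    have := hv.2
    nlinarith
  have h5 : IntervalIntegrable (fun v : ℝ => (v - 0)⁻¹) volume (-(1 / 2)) 0 := by
    rw [intervalIntegrable_iff_integrableOn_Ioo_of_le (by norm_num)]
    exact h4
  rw [intervalIntegrable_sub_inv_iff] at h5
  rcases h5 with h5 | h5
  · norm_num at h5
  · exact h5 right_mem_uIcc

end Vale.Agent.P354.R3.H713
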