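import Vale.Agent.P354.H251.Gen
import Vale.Agent.P354.R3.H713.Inf

/-!
The plane waves of the functions f on (-1,0): the data with a future extension of class C^0 and
W^{1,p}_loc form a proper linear subspace of the space of all data.
-/

open scoped ContDiff
open MeasureTheory Set Filter Topology

namespace Vale.Agent.P354.R3.H713

open Vale.Agent.P354n (IsSmooth IsSpacetime IsC0W1 IsFutureExtension InLp IsInext IsMax wave IsData)
open Vale.Agent.P354v.G.N (wave_inext wave_iff)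

theorem data_zero : IsData 0 := by
  refine ⟨contDiffOn_const, integrableOn_zero, ?_⟩
  simp

theorem data_smul {f : ℝ → ℝ} (hf : IsData f) (c : ℝ) : IsData (c • f) := by
  refine ⟨hf.1.const_smul c, hf.2.1.smul c, ?_⟩
  have h : IntegrableOn (fun v => c ^ 2 * (v * (1 + v) * f v ^ 2)) (Ioo (-1) 0) :=
    hf.2.2.const_mul (c ^ 2)
  refine h.congr_fun (fun v _ => ?_) measurableSet_Ioo
  simp only [Pi.smul_apply, smul_eq_mul]
  ring

theorem data_add {f g : ℝ → ℝ} (hf : IsData f) (hg : IsData g) : IsData (f + g) := by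
  refine ⟨hf.1.add hg.1, hf.2.1.add hg.2.1, ?_⟩
  have hb : IntegrableOn (fun v => 2 * (-(v * (1 + v) * f v ^ 2)) +
      2 * (-(v * (1 + v) * g v ^ 2))) (Ioo (-1) 0) :=
    (hf.2.2.neg.const_mul 2).add (hg.2.2.neg.const_mul 2)
  refine Integrable.mono' hb ?_ ?_
  · have hc : ContinuousOn (fun v => v * (1 + v) * (f + g) v ^ 2) (Ioo (-1) 0) := by
      have h1 := hf.1.continuousOn
      have h2 := hg.1.continuousOn
      have h3 : ContinuousOn (f + g) (Ioo (-1) 0) := h1.add h2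
      exact (Continuous.continuousOn (by fun_prop)).mul (h3.pow 2)
    exact hc.aestronglyMeasurable measurableSet_Ioo
  · rw [ae_restrict_iff' measurableSet_Ioo]
    refine Eventually.of_forall fun v hv => ?_
    have hw := pos_aux hv
    rw [Real.norm_eq_abs, Pi.add_apply, abs_mul, abs_of_neg (by linarith : v * (1 + v) < 0),
      abs_of_nonneg (sq_nonneg _)]
    nlinarith [mul_nonneg hw.le (sq_nonneg (f v - g v))]

/-- The space of all data. -/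
def DD : Submodule ℝ (ℝ → ℝ) where
  carrier := {f | IsData f}
  add_mem' := fun hf hg => data_add hf hg
  zero_mem' := data_zero
  smul_mem' := fun c _ hf => data_smul hf c

theorem f0_data : IsData f0 := ⟨f0_smooth, f0_int, f0_int2⟩

theorem sub_half : Ioo (-(1 / 2) : ℝ) 0 ⊆ Ioo (-1) 0 := Ioo_subset_Ioo_left (by norm_num)

theorem m0 (x : DD) : AEStronglyMeasurable (DD.subtype x)
    (volume.restrict (Ioo (-(1 / 2) : ℝ) 0)) :=
  ((x.2 : IsData x.1).1.continuousOn.mono sub_half).aestronglyMeasurable measurableSet_Ioo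

/-- The reflection. -/
def Rf : DD →ₗ[ℝ] ℝ → ℝ where
  toFun x v := x.1 (-1 - v)
  map_add' _ _ := rfl
  map_smul' _ _ := rfl

theorem m1 (x : DD) : AEStronglyMeasurable (Rf x) (volume.restrict (Ioo (-(1 / 2) : ℝ) 0)) := by
  have h : ContinuousOn (fun v => x.1 (-1 - v)) (Ioo (-1 : ℝ) 0) :=
    (x.2 : IsData x.1).1.continuousOn.comp (by fun_prop) fun v hv =>
      ⟨by linarith [hv.2], by linarith [hv.1]⟩
  exact (h.mono sub_half).aestronglyMeasurable measurableSet_Ioo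

/-- The data in L^p near v = 0. -/
def VV0 (p : ENNReal) : Submodule ℝ (ℝ → ℝ) := (subLp p DD.subtype m0).map DD.subtype

/-- The data in L^p near v = -1. -/
def VV1 (p : ENNReal) : Submodule ℝ (ℝ → ℝ) := (subLp p Rf m1).map DD.subtype

theorem mem_V0 {p : ENNReal} {f : ℝ → ℝ} : f ∈ VV0 p ↔ IsData f ∧ InLp p f (-(1 / 2)) := by
  constructor
  · rintro ⟨x, hx, rfl⟩
    exact ⟨x.2, hx⟩
  · rintro ⟨h1, h2⟩
    exact ⟨⟨f, h1⟩, h2, rfl⟩

theorem mem_V1 {p : ENNReal} {f : ℝ → ℝ} :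
    f ∈ VV1 p ↔ IsData f ∧ InLp p (fun v => f (-1 - v)) (-(1 / 2)) := by
  constructor
  · rintro ⟨x, hx, rfl⟩
    exact ⟨x.2, hx⟩
  · rintro ⟨h1, h2⟩
    exact ⟨⟨f, h1⟩, h2, rfl⟩

theorem lt_V0 {p : ENNReal} (hp : 2 ≤ p) : VV0 p < DD := by
  refine lt_of_le_of_ne (fun f hf => (mem_V0.1 hf).1) fun h => ?_
  have h1 : f0 ∈ VV0 p := by
    rw [h]
    exact f0_data
  exact f0_not hp (mem_V0.1 h1).2

theorem lt_V1 {p : ENNReal} (hp : 2 ≤ p) : VV1 p < DD := by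
  refine lt_of_le_of_ne (fun f hf => (mem_V1.1 hf).1) fun h => ?_
  have h1 : f0 ∈ VV1 p := by
    rw [h]
    exact f0_data
  have h2 := (mem_V1.1 h1).2
  have h3 : (fun v => f0 (-1 - v)) = f0 := funext f0_symm
  rw [h3] at h2
  exact f0_not hp h2

theorem good {p : ENNReal} (hp : 2 ≤ p) {f : ℝ → ℝ} (hf : f ∈ DD) (h0 : f ∉ VV0 p)
    (h1 : f ∉ VV1 p) : IsMax (wave f) ∧ IsInext (IsC0W1 p) (wave f) := by
  have h := wave_inext (f := f) hf hp (fun h => h0 (mem_V0.2 ⟨hf, h⟩)) fun h => h1 (mem_V1.2 ⟨hf, h⟩)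
  exact ⟨h.2, h.1⟩

theorem crit {p : ENNReal} (hp : 2 ≤ p) {f : ℝ → ℝ} (hf : f ∈ DD) :
    f ∈ VV0 p ↔ ∃ N ι c, IsFutureExtension (IsC0W1 p) (wave f) N ι c :=
  ⟨fun h => (wave_iff (f := f) hf hp).2 (mem_V0.1 h).2, fun h =>
    mem_V0.2 ⟨hf, (wave_iff (f := f) hf hp).1 h⟩⟩

theorem lines {p : ENNReal} (hp : 2 ≤ p) {f g : ℝ → ℝ} (hf : f ∈ DD) (hg : g ∈ DD)
    (h0 : g ∉ VV0 p) (h1 : g ∉ VV1 p) : ∃ a b : ℝ, ∀ t : ℝ, t ≠ a → t ≠ b →
      IsMax (wave (f + t • g)) ∧ IsInext (IsC0W1 p) (wave (f + t • g)) := by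
  obtain ⟨a, ha⟩ := one_point (VV0 p) h0 f
  obtain ⟨b, hb⟩ := one_point (VV1 p) h1 f
  exact ⟨a, b, fun t h2 h3 => good hp (DD.add_mem hf (DD.smul_mem t hg)) (ha t h2) (hb t h3)⟩

theorem families {p : ENNReal} (hp : 2 ≤ p) {m : ℕ} {f : ℝ → ℝ} {g : Fin m → ℝ → ℝ}
    (hf : f ∈ DD) (hg : ∀ i, g i ∈ DD) (h0 : ∃ i, g i ∉ VV0 p) (h1 : ∃ i, g i ∉ VV1 p) :
    ∀ᵐ a : Fin m → ℝ, IsMax (wave (f + ∑ i, a i • g i)) ∧
      IsInext (IsC0W1 p) (wave (f + ∑ i, a i • g i)) := by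
  have e0 : ∀ᵐ a : Fin m → ℝ, f + ∑ i, a i • g i ∉ VV0 p := by
    rw [ae_iff]
    simp only [not_not]
    exact null_of f g (VV0 p) h0
  have e1 : ∀ᵐ a : Fin m → ℝ, f + ∑ i, a i • g i ∉ VV1 p := by
    rw [ae_iff]
    simp only [not_not]
    exact null_of f g (VV1 p) h1
  filter_upwards [e0, e1] with a h2 h3
  exact good hp (DD.add_mem hf (DD.sum_mem fun i _ => DD.smul_mem _ (hg i))) h2 h3

theorem some_g {p : ENNReal} (hp : 2 ≤ p) : ∃ g ∈ DD, g ∉ VV0 p ∧ g ∉ VV1 p := by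
  refine ⟨f0, f0_data, fun h => f0_not hp (mem_V0.1 h).2, fun h => ?_⟩
  have h2 := (mem_V1.1 h).2
  have h3 : (fun v => f0 (-1 - v)) = f0 := funext f0_symm
  rw [h3] at h2
  exact f0_not hp h2

theorem lines0 {p : ENNReal} (hp : 2 ≤ p) {f g : ℝ → ℝ} (hf : f ∈ DD) (hg : g ∈ DD)
    (h0 : g ∉ VV0 p) : ∃ a : ℝ, ∀ t : ℝ, t ≠ a →
      ¬ ∃ N ι c, IsFutureExtension (IsC0W1 p) (wave (f + t • g)) N ι c := by
  obtain ⟨a, ha⟩ := one_point (VV0 p) h0 f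
  exact ⟨a, fun t h2 h => ha t h2 ((crit hp (DD.add_mem hf (DD.smul_mem t hg))).2 h)⟩

theorem families0 {p : ENNReal} (hp : 2 ≤ p) {m : ℕ} {f : ℝ → ℝ} {g : Fin m → ℝ → ℝ}
    (hf : f ∈ DD) (hg : ∀ i, g i ∈ DD) (h0 : ∃ i, g i ∉ VV0 p) :
    ∀ᵐ a : Fin m → ℝ, ¬ ∃ N ι c,
      IsFutureExtension (IsC0W1 p) (wave (f + ∑ i, a i • g i)) N ι c := by
  have e0 : ∀ᵐ a : Fin m → ℝ, f + ∑ i, a i • g i ∉ VV0 p := by
    rw [ae_iff]
    simp only [not_not]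
    exact null_of f g (VV0 p) h0
  filter_upwards [e0] with a h2 h
  exact h2 ((crit hp (DD.add_mem hf (DD.sum_mem fun i _ => DD.smul_mem _ (hg i)))).2 h)

theorem LQ_data (Q : Polynomial ℝ) : IsData (LQ Q) := ⟨LQ_smooth Q, LQ_int Q, LQ_int2 Q⟩

theorem LQ_notMem {p : ENNReal} (hp : 2 ≤ p) {Q : Polynomial ℝ} (hQ : Q ≠ 0) :
    LQ Q ∉ VV0 p ∧ LQ Q ∉ VV1 p := by
  refine ⟨fun h => LQ_not hp hQ (mem_V0.1 h).2, fun h => ?_⟩
  have h2 := (mem_V1.1 h).2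
  have h3 : (fun v => LQ Q (-1 - v)) = LQ Q := funext (LQ_symm Q)
  rw [h3] at h2
  exact LQ_not hp hQ h2

theorem LQ_inj : Function.Injective LQ := by
  rw [← LinearMap.ker_eq_bot, LinearMap.ker_eq_bot']
  intro Q h
  by_contra hQ
  apply (LQ_notMem (le_refl 2) hQ).1
  rw [h]
  exact Submodule.zero_mem _

/-- The space of the functions Q(-log w) / √w. -/
noncomputable def FF : Submodule ℝ (ℝ → ℝ) := LinearMap.range LQ

theorem FF_inf : ¬ FiniteDimensional ℝ FF := by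
  intro h
  have e : Polynomial ℝ ≃ₗ[ℝ] FF := LinearEquiv.ofInjective LQ LQ_inj
  have h1 : Module.Finite ℝ (Polynomial ℝ) := Module.Finite.equiv e.symm
  exact Polynomial.not_finite h1

theorem FF_le : FF ≤ DD := by
  rintro f ⟨Q, rfl⟩
  exact LQ_data Q

theorem FF_not {p : ENNReal} (hp : 2 ≤ p) : ∀ g ∈ FF, g ≠ 0 → g ∉ VV0 p ∧ g ∉ VV1 p := by
  rintro g ⟨Q, rfl⟩ hg
  exact LQ_notMem hp fun h => hg (by rw [h, map_zero])

theorem one_of {F V : Submodule ℝ (ℝ → ℝ)} (h : ∀ g ∈ F, g ≠ 0 → g ∉ V) (f : ℝ → ℝ) :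
    ∃ a, ∀ g ∈ F, g ≠ a → f + g ∉ V := by
  by_cases h0 : ∃ a ∈ F, f + a ∈ V
  · obtain ⟨a, ha, hV⟩ := h0
    refine ⟨a, fun g hg hne hmem => ?_⟩
    have h1 := V.sub_mem hmem hV
    rw [add_sub_add_left_eq_sub] at h1
    exact h _ (F.sub_mem hg ha) (sub_ne_zero.2 hne) h1
  · exact ⟨0, fun g hg _ hmem => h0 ⟨g, hg, hmem⟩⟩

theorem two_of {p : ENNReal} (hp : 2 ≤ p) : ∀ f ∈ DD, ∃ a b, ∀ g ∈ FF, g ≠ a → g ≠ b →
    IsMax (wave (f + g)) ∧ IsInext (IsC0W1 p) (wave (f + g)) := by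
  intro f hf
  obtain ⟨a, ha⟩ := one_of (fun g hg h0 => (FF_not hp g hg h0).1) f
  obtain ⟨b, hb⟩ := one_of (fun g hg h0 => (FF_not hp g hg h0).2) f
  exact ⟨a, b, fun g hg h1 h2 => good hp (DD.add_mem hf (FF_le hg)) (ha g hg h1) (hb g hg h2)⟩

end Vale.Agent.P354.R3.H713
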